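import Vale.Agent.P352R.Le80.Net
import Vale.Agent.P352R.Cf.WitB2

/-!
# P352R, block Le80: linear energy bounds, Bose fields (helper80)
-/

set_option autoImplicit false
set_option linter.all false

noncomputable section

namespace Vale.Agent.P352R.Le80

section

open P352 GF P352R.P P352R.G P352W.Net
open UniformSpace (Completion)

variable {D : Type*} [NormedAddCommGroup D] [InnerProductSpace ℂ D] {Q : Theory D}
  {A : (V → V) → D → D}

theorem derA (h : Gnr Q A) (v : D) : HasDerivAt (fun t : ℝ => Q.U 1 GF.one (bas o t) v)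
    (Complex.I • A (fun _ => bas o 1) v) 0 :=
  h (fun _ => 1) (fun _ => GF.one) (fun t => bas o t) (fun _ => bas o 1) v rfl rfl
    (funext fun n => by simp [bas]) (fun _ => ⟨one_pos, H496.isLor_one⟩) fun n x => by
      unfold sim bas
      by_cases e : n = o
      · simp only [e, if_true]; exact (hasDerivAt_id (0 : ℝ)).add_const _
      · simp only [e, if_false]; exact hasDerivAt_const (0 : ℝ) _

theorem nI (x : D) : ‖Complex.I • x‖ = ‖x‖ := by rw [norm_smul, Complex.norm_I, one_mul]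

/-- **linear energy bounds give a local net** -/
theorem lnm (R : Rep Q A) (b : ∀ B, Q.fld B → Q.bose B) (c : CntF Q)
    (l : ∀ B f, Q.fld B → In Set.univ f → ∃ C : ℝ, ∀ v,
      ‖B f v‖ ≤ C * (‖v‖ + ‖A (fun _ => bas o 1) v‖)) : LNm Q A (net Q) := by
  have z : ∀ {B f} (v : D), Fer Q id B → IsTest f → B f v = 0 := fun v h t => by
    have := h.2 _ v t
    rw [id, id, eq_neg_iff_add_eq_zero, ← two_smul ℂ] at this
    exact (smul_eq_zero.1 this).resolve_left two_ne_zero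
  have g : Gr Q id := ⟨fun _ => rfl, fun _ _ => rfl, fun _ _ _ _ _ => rfl, fun B h => by
      obtain ⟨S, -, s⟩ := c.cnt
      exact ⟨B, 0, b B h, ⟨(s 0).2 (zero_mem _), fun _ _ _ => by simp⟩, fun _ _ _ => by simp⟩,
    fun B C f k v p q x y _ => by rw [z _ p x, z _ q y, neg_zero], fun _ _ _ _ _ _ => rfl,
    fun s L a s' L' a' p q r t => .inl fun v => R.mul s L a s' L' a' v p q r t⟩
  have k := lng (Γ := 1) g (fun _ => rfl) rfl R.add R.der c fun B f p q =>
    (l B f p q).imp fun C e v => by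
      rw [(L72.der R.der o v).unique (derA R.der v), nI]; exact e v
  refine ⟨R, k.fld, k.mono, k.cov, fun a b X p q r m => ?_⟩
  have := (net Q (Wdg a b 0)).commutant.toStarSubalgebra.smul_mem (k.loc a b X p q r m).1 (2⁻¹ : ℂ)
  rwa [one_mul, mul_one, ← two_smul ℂ X, smul_smul, inv_mul_cancel₀ two_ne_zero, one_smul] at this

end

open P352 GF H246 H15 BW P352X P352W Cf
open P352.ND (PCh)
open P352L.StA (hull sp_of)
open UniformSpace (Completion)

/-- **the witness**, with the linear energy bound -/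
theorem witL2 : ∃ (D : Type) (_ : NormedAddCommGroup D)
    (_ : InnerProductSpace ℂ D) (Q : Theory D) (T : Ix → Ix → Fld D) (A : (V → V) → D → D)
    (N : Set V → VonNeumannAlgebra (Completion D)), (Stress0 Q T ∧ PCh Q T A ∧
      (MfAll Q ∧ FSL Q) ∧ P.CntF Q ∧ LNm Q A N ∧ L.UVac Q ∧
      (∃ φ, Q.IsScalar φ 1 ∧ ∃ f, IsTest f ∧ φ f Q.vac ≠ 0) ∧
      ¬FiniteDimensional ℂ (Completion D) ∧ ∃ f, IsTest f ∧ tr T f Q.vac ≠ 0) ∧
      (∀ w, P352NA.Cyc Q w) ∧ (∀ B, Q.fld B → Q.bose B) ∧ Egr.Lb Q := by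
  have h := free
  obtain ⟨A, hA⟩ := h.rep
  obtain ⟨N, hN⟩ := Net.lnm hA h.scalar h.raw h.fil
  obtain ⟨v, n, p⟩ := h.perp hA
  have s := P352H.str (h.stress hA)
  exact ⟨_, _, _, hull h.th, _, A, N, ⟨⟨s.bose, s.symm, s.herm,
    fun m n L a f v => s.cov m n 1 L a f v one_pos, s.conserved, s.charge⟩,
    P352H.pch hA h.fT (h.pch hA), ⟨P352H.mfa h.mf, P352H.fsl h.fsl⟩, Wb.free_cntF h,
    P352L.StA.lnm hN, h.uvac, ⟨_, ⟨sp_of h.fp, h.scalar.2⟩, h.nzp⟩, nz_dim hA h.uvac n p, h.nz⟩,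
    fun w S a b => h.gen S a (fun B f v k => b B f v (sp_of k)) w, fun _ b => b,
    Wg.lb (Q := h.th) (Eb.eb fun _ _ => Fk.Cov.wd_gm one_pos isLor_one)⟩

theorem lb {D : Type*} [NormedAddCommGroup D] [InnerProductSpace ℂ D] {Q : Theory D}
    {A : (V → V) → D → D} (h : P.Gnr Q A) (e : Egr.Lb Q) (B : Fld D) (f : Fn) (p : Q.fld B)
    (q : P.In Set.univ f) : ∃ C : ℝ, ∀ v, ‖B f v‖ ≤ C * (‖v‖ + ‖A (fun _ => bas o 1) v‖) :=
  (e B f p q.1).imp fun _ r v => by
    have := r v _ (derA h v)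
    rwa [nI] at this

end Vale.Agent.P352R.Le80
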