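import Vale.Agent.P352R.Le80.Pair
import Vale.Agent.P352R.Lg.Net
import Vale.Agent.P352R.L72.WitL
import Vale.Agent.P352X.EG.WB
import Vale.Agent.P352W.Net.Lnm

/-!
# P352R, block Le80: linear energy bounds give a graded local net (helper80)
-/

set_option autoImplicit false
set_option linter.all false

noncomputable section

namespace Vale.Agent.P352R.Le80

open P352 GF P352R.P P352R.G P352W.Net
open UniformSpace (Completion)

variable {D : Type*} [NormedAddCommGroup D] [InnerProductSpace ℂ D] {Q : Theory D} {G : D → D}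
  {A : (V → V) → D → D} {Γ Y : Completion D →L[ℂ] Completion D} {S S' : Set V}
  {B B' C : Fld D} {f k : Fn}

theorem dr (h : Gnr Q A) : P352X.EG.Wb.Dr Q := fun m v => by
  have := L72.der h m v
  simp only [H246.bas_eq] at this
  exact this

/-- the generator of the time translations -/
def PP (h : Gnr Q A) : D →ₗ[ℂ] D where
  toFun := Dv Q o
  map_add' := (P352X.EG.Wb.DvA (dr h) o).map_add
  map_smul' c v := H246.Dv_eq (by
    simp only [H246.U1_smul]
    exact (dr h o v).const_smul c)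

theorem gen (h : Gnr Q A) : Gen (fun t => H246.U1 Q (t • eb o)) (PP h) where
  anti v w := by
    have h1 := (dr h o v).inner ℂ (dr h o w)
    have h2 : (fun t : ℝ => inner ℂ (H246.U1 Q (t • eb o) v) (H246.U1 Q (t • eb o) w)) =
        fun _ => inner ℂ v w := funext fun t => Q.U_inner _ _ _ _ _ one_pos H496.isLor_one
    rw [h2] at h1
    have h3 := h1.unique (hasDerivAt_const _ _)
    simp only [zero_smul, show ∀ u, H246.U1 Q 0 u = u from H755.Uone] at h3
    exact eq_neg_of_add_eq_zero_right h3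
  zero v := by rw [zero_smul]; exact H755.Uone v
  sub t c v w := by rw [H246.U1_add, H246.U1_smul]
  norm t v := by
    rw [norm_eq_sqrt_re_inner (𝕜 := ℂ), norm_eq_sqrt_re_inner (𝕜 := ℂ) v,
      Q.U_inner _ _ _ _ _ one_pos H496.isLor_one]
  comm t v := (P352X.EG.Wb.Dv_U (dr h) o _ v).symm
  der t v := by
    have h1 := H246.hasDerivAt_U1 (Q := Q) (t • eb o) (dr h o v)
    have h2 := HasDerivAt.comp_sub_const (x := t) (a := t) (by rw [sub_self]; exact h1)
    refine h2.congr_of_eventuallyEq (.of_forall fun r => ?_)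
    simp only [H246.U1, H755.Uadd1]
    congr 1
    funext n
    simp only [PiLp.smul_apply, Pi.add_apply, smul_eq_mul]
    ring

/-- linear energy bounds -/
def Leb (Q : Theory D) : Prop :=
  ∀ B f, Q.fld B → In Set.univ f → ∃ C : ℝ, ∀ v, ‖B f v‖ ≤ C * (‖v‖ + ‖Dv Q o v‖)

theorem univ (hf : In S f) : In Set.univ f := ⟨hf.1, hf.2.1, Set.subset_univ _⟩

theorem inb (hf : In S f) : In S (bar f) := by
  have e : tsupport (bar f) = tsupport f := H246.tsupport_bar f
  exact ⟨H246.isTest_bar hf.1, show IsCompact _ from e ▸ hf.2.1, e ▸ hf.2.2⟩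

theorem kb (h : Gnr Q A) (l : Leb Q) (hB : Q.fld B) (hf : In S f) : Kb (PP h) (B f) := by
  obtain ⟨c, b⟩ := l B f hB (univ hf)
  refine ⟨2 * |c|, by positivity, fun v => (b v).trans ?_⟩
  obtain ⟨x, y⟩ := kn (gen h) v
  have : ‖Dv Q o v‖ ≤ ‖v - PP h v‖ := y
  nlinarith [le_abs_self c, abs_nonneg c, norm_nonneg v, norm_nonneg (Dv Q o v)]

theorem gd (h : Gnr Q A) (l : Leb Q) (hB : Q.fld B) (hf : In S f) : Gd (PP h) (lm hB hf.1) := by
  have e : ∀ {f} (hf : In S f), PP h * lm hB hf.1 - lm hB hf.1 * PP h =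
      -lm hB (H846.in_pd hf o).1 := fun hf => LinearMap.ext fun v =>
    sub_eq_of_eq_add (P352X.EG.Wb.Dv_fld (dr h) o hB hf.1 v)
  have f1 : In S (pd o f) := H846.in_pd hf o
  have f2 : In S (pd o (pd o f)) := H846.in_pd f1 o
  refine ⟨kb h l hB hf, (kb h l hB f1).comb (kb h l hB f1) (-1) 0 fun v => ?_,
    (kb h l hB f2).comb (kb h l hB f2) 1 0 fun v => ?_⟩
  · rw [e hf]; simp [lm]
  · rw [e hf, mul_neg, neg_mul, ← neg_sub', e f1]; simp [lm]

/-- the weak commutant of the fields in `S` -/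
def Wc (Q : Theory D) (S : Set V) : Set (Completion D →L[ℂ] Completion D) :=
  {Y | ∀ B B' f, Q.fld B → Q.fld B' → IsAdj B B' → In S f → wc Y (B f) (B' (bar f))}

theorem adj_symm (a : IsAdj B B') : IsAdj B' B := fun f v w hf => by
  rw [← inner_conj_symm, ← H246.bar_bar f, ← a _ _ _ (H246.isTest_bar hf), inner_conj_symm,
    H246.bar_bar]

theorem wc' (m : Y ∈ Wc Q S) (hB : Q.fld B) (hB' : Q.fld B') (a : IsAdj B B') (hf : In S f) :
    wc Y (B' (bar f)) (B f) := by
  have := m B' B _ hB' hB (adj_symm a) (inb hf)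
  rwa [H246.bar_bar] at this

theorem wc_st : ∀ Y ∈ Wc Q S, star Y ∈ Wc Q S := fun _ m _ _ _ a b c d => wc_star (wc' m a b c d)

/-- the net -/
def net (Q : Theory D) (S : Set V) : VonNeumannAlgebra (Completion D) := cmt (Wc Q S)

theorem aff (h : Gnr Q A) (l : Leb Q) (hB : Q.fld B) (hf : In S f) : Aff (net Q S) (B f) := by
  obtain ⟨B', hB', a⟩ := Q.adj B hB
  obtain ⟨T, p, -⟩ := pair (gen h) (gd h l hB hf) (gd h l hB' (inb hf)) fun v w => a f v w hf.1
  refine ⟨B' (bar f), fun v w => a f v w hf.1, fun Y hY => ((p Y).2 fun R r => ?_).1⟩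
  exact (VonNeumannAlgebra.mem_commutant_iff.1 hY R ((mem_cmt wc_st).2 fun Z z =>
    (p Z).1 ⟨z B B' f hB hB' a hf, wc' z hB hB' a hf⟩ R r)).symm

/-- an operator that commutes with the fields of `S'` commutes weakly with the algebra of `S'` -/
theorem loc0 (h : Gnr Q A) (l : Leb Q) {X X' : D →ₗ[ℂ] D} (a : Gd (PP h) X) (a' : Gd (PP h) X')
    (ad : ∀ v w, inner ℂ (X v) w = inner ℂ v (X' w))
    (c : ∀ B f v, Q.fld B → In S' f → X (B f v) = B f (X v)) (m : Y ∈ net Q S') : wc Y X X' := by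
  obtain ⟨T, p, q⟩ := pair (gen h) a a' ad
  refine ((p Y).2 fun R r => ((mem_cmt wc_st).1 m R fun B B' f b b' e hf => ?_).symm).1
  refine q (lm b hf.1) (lm b' (inb hf).1) (kb h l b hf) (fun v w => e f v w hf.1)
    (fun v => c B f v b hf) (fun v => ext_inner_left ℂ fun w => ?_) R r
  show inner ℂ w (X' (B f v)) = inner ℂ w (B f (X' v))
  have e' := fun v w => adj_symm e _ v w (inb hf).1
  rw [H246.bar_bar] at e'
  rw [← ad, ← e', ← e', ← ad, c _ _ _ b' (inb hf)]

section

variable (g : Gr Q G) (ex : ∀ v : D, Γ v = (G v : D))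
include g

/-- the grading as a linear map -/
def GG : D →ₗ[ℂ] D where
  toFun := G
  map_add' v w := ext_inner_right ℂ fun u => by rw [g.herm, inner_add_left, inner_add_left, g.herm, g.herm]
  map_smul' c v := ext_inner_right ℂ fun u => by
    rw [g.herm, inner_smul_left, RingHom.id_apply, inner_smul_left, g.herm]

theorem G_norm (v : D) : ‖GG g v‖ = ‖v‖ := by
  rw [norm_eq_sqrt_re_inner (𝕜 := ℂ), norm_eq_sqrt_re_inner (𝕜 := ℂ) v]
  exact congrArg (fun x => √(RCLike.re x)) ((g.herm _ _).trans (by rw [show GG g v = G v from rfl, g.inv]))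

theorem G_P (h : Gnr Q A) (v : D) : PP h (GG g v) = GG g (PP h v) := by
  let L : D →L[ℝ] D := (LinearMap.mkContinuous (GG g) 1 fun v => by rw [G_norm, one_mul]).restrictScalars ℝ
  refine H246.Dv_eq ((L.hasFDerivAt.comp_hasDerivAt 0 (dr h o v)).congr_of_eventuallyEq
    (.of_forall fun t => ?_))
  exact g.GU _ _ _ _ one_pos H496.isLor_one

theorem adj_par (e : ℂ) (a : IsAdj B B') (hf : IsTest f) (hB' : Q.fld B')
    (c : ∀ v, B (bar f) (G v) = e • G (B (bar f) v)) (v : D) :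
    G (B' f v) = star e • B' f (G v) := ext_inner_left ℂ fun w => by
  have a' := fun v w => a _ v w (H246.isTest_bar hf)
  rw [H246.bar_bar] at a'
  rw [← g.herm, ← a', c, inner_smul_left, inner_smul_right, g.herm, a']
  rfl

theorem fer_adj (b : Fer Q G B) (hB' : Q.fld B') (a : IsAdj B B') : Fer Q G B' :=
  ⟨hB', fun f v hf => by
    rw [adj_par g (-1) a hf hB' (fun v => by rw [b.2 _ _ (H246.isTest_bar hf), neg_one_smul])]
    simp⟩

theorem bos_adj (b : Q.bose B) (hB' : Q.fld B') (a : IsAdj B B') (hf : IsTest f) (v : D) :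
    B' f (G v) = G (B' f v) := by
  rw [adj_par g 1 a hf hB' (fun v => by rw [g.bose _ _ _ b (H246.isTest_bar hf), one_smul])]
  simp

theorem mem_wc
    (h1 : ∀ B B' f, Q.bose B → Q.fld B' → IsAdj B B' → In S f → wc Y (B f) (B' (bar f)))
    (h2 : ∀ B B' f, Fer Q G B → Fer Q G B' → IsAdj B B' → In S f → wc Y (B f) (B' (bar f))) :
    Y ∈ Wc Q S := fun B B' f b b' a hf v w => by
  obtain ⟨C, F, c, d, e⟩ := g.split B b
  obtain ⟨C', c', x⟩ := Q.adj C (Q.bose_fld _ c)
  obtain ⟨F', d', y⟩ := Q.adj F d.1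
  have : B' (bar f) w = C' (bar f) w + F' (bar f) w := ext_inner_left ℂ fun u => by
    rw [← a _ _ _ hf.1, e _ _ hf.1, inner_add_left, inner_add_right, x _ _ _ hf.1, y _ _ _ hf.1]
  rw [this, e _ _ hf.1, Completion.coe_add, Completion.coe_add, inner_add_left, map_add,
    inner_add_right, h1 C C' f c c' x hf, h2 F F' f d (fer_adj g d d' y) y hf]

include ex

theorem G_in (w : D) (z : Completion D) :
    inner ℂ (w : Completion D) (Γ z) = inner ℂ ((G w : D) : Completion D) z :=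
  Completion.induction_on z (isClosed_eq (by fun_prop) (by fun_prop)) fun v => by
    rw [ex, Completion.inner_coe, Completion.inner_coe, g.herm]

theorem wc_gam : ∀ Y ∈ Wc Q S, Γ * Y * Γ ∈ Wc Q S := fun Y m =>
  mem_wc g (fun B B' f b b' a hf v w => by
      simp only [ContinuousLinearMap.mul_apply, ex, G_in g ex]
      rw [← bos_adj g b b' a (inb hf).1, m B B' f (Q.bose_fld _ b) b' a hf, g.bose _ _ _ b hf.1])
    fun B B' f b b' a hf v w => by
      simp only [ContinuousLinearMap.mul_apply, ex, G_in g ex]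
      have := m B B' f b.1 b'.1 a hf (G v) (G w)
      rw [b.2 _ _ hf.1, b'.2 _ _ (inb hf).1, Completion.coe_neg, Completion.coe_neg, inner_neg_left,
        map_neg, inner_neg_right] at this
      exact neg_injective this

theorem net_gam : ∀ X ∈ net Q S, Γ * X * Γ ∈ net Q S := fun X m => (mem_cmt wc_st).2 fun Z z => by
  have e := (mem_cmt wc_st).1 m _ (wc_gam g ex Z z)
  have g2 := Lg.g2 g ex
  calc Z * (Γ * X * Γ) = Γ * (Γ * Z * Γ * X) * Γ := by
        simp only [← mul_assoc, g2, one_mul]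
    _ = _ := by rw [e]; simp only [mul_assoc, g2, mul_one]

theorem tw (h : Gnr Q A) (l : Leb Q) (sp : ∀ f k, In S f → In S' k → Sep f k) (m : Y ∈ net Q S') :
    (∀ B B' f, Q.bose B → Q.fld B' → IsAdj B B' → In S f → wc Y (B f) (B' (bar f))) ∧
    ∀ B B' f, Fer Q G B → Fer Q G B' → IsAdj B B' → In S f → ∀ v w : D,
      inner ℂ ((B' (bar f) w : D) : Completion D) (Y v) =
        inner ℂ (w : Completion D) ((Γ * Y * Γ) ((B f v : D) : Completion D)) := by
  refine ⟨fun B B' f b b' a hf => ?_, fun B B' f b b' a hf v w => ?_⟩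
  · have := loc0 h l (gd h l (Q.bose_fld _ b) hf) (gd h l b' (inb hf))
      (fun v w => a f v w hf.1) (fun C k v c hk => by
        show B f (C k v) = C k (B f v)
        exact Q.loc B C f k v b c hf.1 hk.1 (sp f k hf hk)) m
    exact fun v w => this v w
  have x := (gd h l b.1 hf).left (GG g) (G_norm g) (G_P g h)
  have y := (gd h l b'.1 (inb hf)).left (GG g) (G_norm g) (G_P g h)
  have := loc0 h l x (y.comb y (-1) 0) (fun v w => by
      show inner ℂ (G (B f v)) w = inner ℂ v ((-1 : ℂ) • G (B' (bar f) w) + (0 : ℂ) • _)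
      rw [g.herm, a _ _ _ hf.1, b'.2 _ _ (inb hf).1]; simp)
    (fun C k v c hk => by
      show G (B f (C k v)) = C k (G (B f v))
      obtain ⟨E, F, p, q, e⟩ := g.split C c
      rw [e _ _ hk.1, e _ _ hk.1, H755.fadd b.1 hf.1, show ∀ x y, G (x + y) = G x + G y from
        (GG g).map_add, g.bose _ _ _ p hk.1, q.2 _ _ hk.1,
        Q.loc E B k f v p b.1 hk.1 hf.1 (H15.sep_symm (sp f k hf hk)),
        g.anti B F f k v b q hf.1 hk.1 (sp f k hf hk),
        show ∀ x, G (-x) = -G x from (GG g).map_neg]) m v (G w)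
  simp only [ContinuousLinearMap.mul_apply, ex, G_in g ex]
  refine Eq.trans ?_ this
  show _ = inner ℂ (((-1 : ℂ) • G (B' (bar f) (G w)) + (0 : ℂ) • _ : D) : Completion D) _
  rw [b'.2 _ _ (inb hf).1, show ∀ x, G (-x) = -G x from (GG g).map_neg, g.inv]
  simp

theorem net_loc (h : Gnr Q A) (l : Leb Q) (sp : ∀ f k, In S f → In S' k → Sep f k)
    (m : Y ∈ net Q S') : Y + Γ * Y * Γ ∈ Wc Q S ∧ (Y - Γ * Y * Γ) * Γ ∈ Wc Q S := by
  have g2 := Lg.g2 g ex
  obtain ⟨a1, a2⟩ := tw g ex h l sp (add_mem m (net_gam g ex Y m))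
  obtain ⟨b1, b2⟩ := tw g ex h l sp (sub_mem m (net_gam g ex Y m))
  have e1 : Γ * (Y + Γ * Y * Γ) * Γ = Y + Γ * Y * Γ := by
    simp only [mul_add, add_mul, ← mul_assoc, g2, one_mul]
    rw [mul_assoc Y, g2, mul_one, add_comm]
  have e2 : Γ * (Y - Γ * Y * Γ) * Γ = -(Y - Γ * Y * Γ) := by
    simp only [mul_sub, sub_mul, ← mul_assoc, g2, one_mul]
    rw [mul_assoc Y, g2, mul_one, neg_sub]
  rw [e1] at a2
  rw [e2] at b2
  refine ⟨mem_wc g a1 a2, mem_wc g (fun B B' f b b' a hf v w => ?_) fun B B' f b b' a hf v w => ?_⟩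
  · rw [ContinuousLinearMap.mul_apply, ContinuousLinearMap.mul_apply, ex, ex, b1 B B' f b b' a hf,
      g.bose _ _ _ b hf.1]
  · rw [ContinuousLinearMap.mul_apply, ContinuousLinearMap.mul_apply, ex, ex, b2 B B' f b b' a hf,
      b.2 _ _ hf.1, Completion.coe_neg, map_neg, ContinuousLinearMap.neg_apply, neg_neg]

omit ex in
theorem fcov (c : CntF Q) {s : ℝ} {L : Ix → V} (hs : 0 < s) (hL : IsLor L) (y : V) (hB : Q.fld B)
    (hf : In S f) : ∃ C k, Q.fld C ∧ In (sim s L y '' S) k ∧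
      ∀ v, Q.U s L y (B f v) = C k (Q.U s L y v) := by
  obtain ⟨C, hC, -, cv⟩ := c.cov s L B hs hL hB
  have push : ∀ {s L y} {S : Set V} {f : Fn}, 0 < s → IsLor L → In S f →
      ∃ k, In (sim s L y '' S) k ∧ f = fun x => k (sim s L y x) := by
    intro s L y S f hs hL hf
    set τ := sim s⁻¹ (H246.linv L) (-(sim s⁻¹ (H246.linv L) 0 y)) with hτ
    have i1 : ∀ x, sim s L y (τ x) = x := BW.ue_sim hs hL y
    have i2 : ∀ x, τ (sim s L y x) = x := by
      intro x
      have k := BW.ue_sim (inv_pos.2 hs) (H246.isLor_linv hL) (-(sim s⁻¹ (H246.linv L) 0 y))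
      rw [← hτ] at k
      rw [(congrArg (sim s L y) (k x).symm).trans (i1 _)]
      exact k x
    obtain ⟨F, hFf⟩ := hf.1
    have sm : ContDiff ℝ (⊤ : ℕ∞) f := by rw [← hFf]; exact F.smooth ⊤
    have sub : tsupport (fun x => f (τ x)) ⊆ sim s L y '' tsupport f :=
      closure_minimal (fun x hx => ⟨τ x, subset_closure hx, i1 x⟩)
        (hf.2.1.isCompact.image (sim_cont s L y)).isClosed
    have cs : HasCompactSupport fun x => f (τ x) :=
      (hf.2.1.isCompact.image (sim_cont s L y)).of_isClosed_subset (isClosed_tsupport _) sub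
    exact ⟨fun x => f (τ x), ⟨⟨cs.toSchwartzMap (sm.comp (sim_smooth _ _ _)), rfl⟩, cs,
      sub.trans (Set.image_mono hf.2.2)⟩, by simp only [i2]⟩
  obtain ⟨k, hk, e⟩ := push (y := 0) hs hL hf
  obtain ⟨k', hk', e'⟩ := push (y := y) one_pos H496.isLor_one hk
  have s1 : ∀ x, sim 1 GF.one y x = x + y := fun x => by
    funext n; simp [sim, GF.one, bas, add_comm]
  have s2 : ∀ x, sim 1 GF.one y (sim s L 0 x) = sim s L y x := fun x => by
    rw [s1]; funext n; simp [sim, add_comm]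
  have u : ∀ v, Q.U 1 GF.one y (Q.U s L 0 v) = Q.U s L y v := fun v => by
    rcases g.mul 1 GF.one y s L 0 one_pos hs H496.isLor_one hL with h | ⟨h, -⟩
    · rw [h, one_mul]
      congr 1
      · funext m n; simp [sim, GF.one, bas]
      · rw [s1, zero_add]
    · exact absurd rfl h
  refine ⟨C, k', hC, by simpa only [Set.image_image, s2] using hk', fun v => ?_⟩
  rw [← u, ← u, Q.transl C y k' _ hC hk'.1, ← e', ← cv k v hk.1, ← e]

omit ex in
theorem net_cov (c : CntF Q) {s : ℝ} {L : Ix → V} (hs : 0 < s) (hL : IsLor L) (y : V)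
    (m : Y ∈ net Q S) : ∃ X ∈ net Q (sim s L y '' S), ∀ z, X (Ue Q s L y z) = Ue Q s L y (Y z) := by
  have k : ∀ Z ∈ Wc Q (sim s L y '' S), star (Lg.W Q hs hL y) * Z * Lg.W Q hs hL y ∈ Wc Q S := by
    intro Z z B B' f b b' a hf v w
    obtain ⟨C, k, hC, hk, e⟩ := fcov g c hs hL y b hf
    obtain ⟨C', hC', a'⟩ := Q.adj C hC
    have : Q.U s L y (B' (bar f) w) = C' (bar k) (Q.U s L y w) := ext_inner_left ℂ fun u => by
      obtain ⟨u, rfl⟩ := Lg.sur g hs hL y u
      rw [← a' _ _ _ hk.1, ← e, Q.U_inner _ _ _ _ _ hs hL, Q.U_inner _ _ _ _ _ hs hL, a _ _ _ hf.1]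
    simp only [ContinuousLinearMap.mul_apply, ContinuousLinearMap.star_eq_adjoint,
      ContinuousLinearMap.adjoint_inner_right, Lg.W_coe]
    rw [this, e, z C C' k hC hC' a' hk]
  refine ⟨Lg.W Q hs hL y * Y * star (Lg.W Q hs hL y), (mem_cmt wc_st).2 fun Z z => ?_, fun z => ?_⟩
  · have e := (mem_cmt wc_st).1 m _ (k Z z)
    have w := Lg.W_star g hs hL y
    calc Z * (Lg.W Q hs hL y * Y * star (Lg.W Q hs hL y))
        = Lg.W Q hs hL y * (star (Lg.W Q hs hL y) * Z * Lg.W Q hs hL y * Y) *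
          star (Lg.W Q hs hL y) := by simp only [← mul_assoc, w, one_mul]
      _ = _ := by rw [e]; simp only [mul_assoc, w, mul_one]
  · rw [← Lg.W_apply hs hL, ← Lg.W_apply hs hL, ← ContinuousLinearMap.mul_apply, mul_assoc,
      Lg.star_W, mul_one, ContinuousLinearMap.mul_apply]

/-- **linear energy bounds give a graded local net** -/
theorem lng (vac : G Q.vac = Q.vac)
    (add : ∀ r r' (c : ℝ) X X' v, IsSim r X → IsSim r' X' →
      A (fun z => X z + c • X' z) v = A X v + (c : ℂ) • A X' v)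
    (h : Gnr Q A) (c : CntF Q) (l : Leb Q) : LNg Q G A Γ (net Q) where
  toGr := g
  vac := vac
  add := add
  der := h
  ext := ex
  fld _ _ _ b hf := aff h l b hf
  mono S S' k X m := (mem_cmt wc_st).2 fun Z z => (mem_cmt wc_st).1 m Z
    fun B B' f a b c hf => z B B' f a b c ⟨hf.1, hf.2.1, hf.2.2.trans k⟩
  cov s L y S X m hs hL := net_cov g c hs hL y m
  gam _ := net_gam g ex
  loc a b X ha hb _ m := by
    have := net_loc g ex h l (S := Wdg a b 0)
      (fun f k x y => H15.sep_symm (wdg_sep ha hb y x)) m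
    exact ⟨VonNeumannAlgebra.mem_commutant_iff.2 fun Z z => ((mem_cmt wc_st).1 z _ this.1).symm,
      VonNeumannAlgebra.mem_commutant_iff.2 fun Z z => ((mem_cmt wc_st).1 z _ this.2).symm⟩

end

theorem ebd (l : Leb Q) : EBd Q := fun B b => ⟨1, fun f hf => by
  obtain ⟨c, k⟩ := l B f b hf
  refine ⟨|c|, fun v => (k v).trans ((mul_le_mul_of_nonneg_right (le_abs_self c) (by positivity)).trans
    (mul_le_mul_of_nonneg_left ?_ (abs_nonneg c)))⟩
  show _ ≤ ‖v‖ + ∑ m, ‖Dv Q m v‖
  exact add_le_add_right (Finset.single_le_sum (f := fun m => ‖Dv Q m v‖)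
    (fun _ _ => norm_nonneg _) (Finset.mem_univ o)) _⟩

/-- the grading on the Hilbert space exists -/
theorem gam (g : Gr Q G) : ∃ Γ : Completion D →L[ℂ] Completion D, ∀ v : D, Γ v = (G v : D) :=
  ⟨LinearMap.extendOfNorm (co ∘ₗ GG g) co, fun v => LinearMap.extendOfNorm_eq
    Completion.denseRange_coe ⟨1, fun x => by
      rw [LinearMap.comp_apply, co_eq, co_eq, Completion.norm_coe, Completion.norm_coe, G_norm,
        one_mul]⟩ v⟩

/-- **the clause** -/
theorem lin (g : Gr Q G) (vac : G Q.vac = Q.vac)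
    (add : ∀ r r' (c : ℝ) X X' v, IsSim r X → IsSim r' X' →
      A (fun z => X z + c • X' z) v = A X v + (c : ℂ) • A X' v)
    (h : Gnr Q A) (c : CntF Q) (l : Leb Q) : EBd Q ∧ ∃ Γ N, LNg Q G A Γ N :=
  have ⟨Γ, ex⟩ := gam g
  ⟨ebd l, Γ, _, lng g ex vac add h c l⟩

end Vale.Agent.P352R.Le80
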