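import Vale.Agent.P352R.Le80.Res

/-!
# P352R, block Le80: pairs of formally adjoint operators (helper80)
-/

set_option autoImplicit false
set_option linter.all false

noncomputable section

namespace Vale.Agent.P352R.Le80

open UniformSpace (Completion)

variable {D : Type*} [NormedAddCommGroup D] [InnerProductSpace ℂ D]
  {U : ℝ → D → D} {P X X' : D →ₗ[ℂ] D} {Y : Completion D →L[ℂ] Completion D}

theorem Kb.comb {B C : D → D} (h : Kb P B) (k : Kb P C) (a b : ℂ) {E : D → D}
    (e : ∀ v, E v = a • B v + b • C v) : Kb P E := by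
  obtain ⟨x, hx, p⟩ := h
  obtain ⟨y, hy, q⟩ := k
  refine ⟨‖a‖ * x + ‖b‖ * y, by positivity, fun v => ?_⟩
  rw [e]
  refine (norm_add_le _ _).trans ?_
  rw [norm_smul, norm_smul]
  nlinarith [mul_le_mul_of_nonneg_left (p v) (norm_nonneg a),
    mul_le_mul_of_nonneg_left (q v) (norm_nonneg b)]

/-- bounded by the energy together with two commutators -/
structure Gd (P A : D →ₗ[ℂ] D) : Prop where
  k0 : Kb P A
  k1 : Kb P (P * A - A * P : D →ₗ[ℂ] D)
  k2 : Kb P (P * (P * A - A * P) - (P * A - A * P) * P : D →ₗ[ℂ] D)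

theorem Gd.comb (h : Gd P X) (k : Gd P X') (a b : ℂ) : Gd P (a • X + b • X') :=
  ⟨h.k0.comb k.k0 a b fun _ => rfl,
    h.k1.comb k.k1 a b fun v => by
      simp only [LinearMap.sub_apply, LinearMap.add_apply, LinearMap.smul_apply,
        Module.End.mul_apply, map_add, map_smul, map_sub, smul_sub]; abel,
    h.k2.comb k.k2 a b fun v => by
      simp only [LinearMap.sub_apply, LinearMap.add_apply, LinearMap.smul_apply,
        Module.End.mul_apply, map_add, map_smul, map_sub, smul_sub]; abel⟩

theorem Gd.left (h : Gd P X) (G : D →ₗ[ℂ] D) (n : ∀ v, ‖G v‖ = ‖v‖) (c : ∀ v, P (G v) = G (P v)) :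
    Gd P (G * X) := by
  have t : ∀ {B E : D → D}, Kb P B → (∀ v, E v = G (B v)) → Kb P E := fun ⟨C, a, b⟩ e =>
    ⟨C, a, fun v => by rw [e, n]; exact b v⟩
  exact ⟨t h.k0 fun _ => rfl,
    t h.k1 fun v => by simp only [LinearMap.sub_apply, Module.End.mul_apply, map_sub, c],
    t h.k2 fun v => by simp only [LinearMap.sub_apply, Module.End.mul_apply, map_sub, c]⟩

theorem wc_star {B B' : D → D} (h : wc Y B B') : wc (star Y) B' B := fun v w => by
  rw [ContinuousLinearMap.star_eq_adjoint, ContinuousLinearMap.adjoint_inner_right,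
    ContinuousLinearMap.adjoint_inner_right, ← inner_conj_symm, ← h, inner_conj_symm]

/-- **two resolvents for a pair** -/
theorem pair (g : Gen U P) (a : Gd P X) (a' : Gd P X')
    (ad : ∀ v w, inner ℂ (X v) w = inner ℂ v (X' w)) :
    ∃ S : Set (Completion D →L[ℂ] Completion D),
      (∀ Y, wc Y X X' ∧ wc Y X' X ↔ ∀ R ∈ S, Y * R = R * Y) ∧
      ∀ B B' : D →ₗ[ℂ] D, Kb P B → (∀ v w, inner ℂ (B v) w = inner ℂ v (B' w)) →
        (∀ v, X (B v) = B (X v)) → (∀ v, X' (B v) = B (X' v)) → ∀ R ∈ S, wc R B B' := by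
  have ad' : ∀ v w, inner ℂ (X' v) w = inner ℂ v (X w) := fun v w => by
    rw [← inner_conj_symm, ← ad, inner_conj_symm]
  have g1 := a.comb a' 1 1
  have g2 := a.comb a' Complex.I (-Complex.I)
  obtain ⟨R1, p1, q1⟩ := res g (A := (1 : ℂ) • X + (1 : ℂ) • X') ⟨fun v w => by
    simp only [LinearMap.add_apply, one_smul, inner_add_left, inner_add_right, ad, ad']; ring,
    g1.k0, g1.k1, g1.k2⟩
  obtain ⟨R2, p2, q2⟩ := res g (A := Complex.I • X + (-Complex.I) • X') ⟨fun v w => by
    simp only [LinearMap.add_apply, LinearMap.smul_apply, inner_add_left, inner_add_right,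
      inner_smul_left, inner_smul_right, ad, ad', map_neg, Complex.conj_I]; ring,
    g2.k0, g2.k1, g2.k2⟩
  refine ⟨{R1, R2}, fun Y => ?_, fun B B' k b c c' => ?_⟩
  · simp only [Set.mem_insert_iff, Set.mem_singleton_iff, forall_eq_or_imp, forall_eq, ← p1, ← p2]
    simp only [wc, LinearMap.add_apply, LinearMap.smul_apply, one_smul, Completion.coe_add,
      Completion.coe_smul, inner_add_left, inner_add_right, inner_smul_left, inner_smul_right,
      map_add, map_smul, map_neg, Complex.conj_I]
    constructor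
    · rintro ⟨h1, h2⟩
      exact ⟨fun v w => by rw [h1, h2]; ring, fun v w => by rw [h1, h2]; ring⟩
    · rintro ⟨h1, h2⟩
      exact ⟨fun v w => by
        linear_combination (1 / 2 : ℂ) * h1 v w - (Complex.I / 2) * h2 v w +
          (1 / 2 : ℂ) * (inner ℂ ((X' w : D) : Completion D) (Y v) - inner ℂ ((X w : D) : Completion D) (Y v) -
            inner ℂ (w : Completion D) (Y ((X v : D) : Completion D)) +
            inner ℂ (w : Completion D) (Y ((X' v : D) : Completion D))) * Complex.I_mul_I,
        fun v w => by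
        linear_combination (1 / 2 : ℂ) * h1 v w + (Complex.I / 2) * h2 v w -
          (1 / 2 : ℂ) * (inner ℂ ((X' w : D) : Completion D) (Y v) - inner ℂ ((X w : D) : Completion D) (Y v) -
            inner ℂ (w : Completion D) (Y ((X v : D) : Completion D)) +
            inner ℂ (w : Completion D) (Y ((X' v : D) : Completion D))) * Complex.I_mul_I⟩
  · simp only [Set.mem_insert_iff, Set.mem_singleton_iff, forall_eq_or_imp, forall_eq]
    exact ⟨q1 B B' k b fun v => by simp only [LinearMap.add_apply, one_smul, map_add, c, c'],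
      q2 B B' k b fun v => by
        simp only [LinearMap.add_apply, LinearMap.smul_apply, map_add, map_smul, c, c']⟩

end Vale.Agent.P352R.Le80
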