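import Mathlib

/-!
# P352R, block Le80: resolvents of symmetric operators with linear energy bounds (helper80)
-/

set_option autoImplicit false
set_option linter.all false

noncomputable section

namespace Vale.Agent.P352R.Le80

open UniformSpace (Completion)

variable {D : Type*} [NormedAddCommGroup D] [InnerProductSpace ℂ D]

/-- weak commutation -/
def wc (Y : Completion D →L[ℂ] Completion D) (X X' : D → D) : Prop :=
  ∀ v w : D, inner ℂ ((X' w : D) : Completion D) (Y (v : Completion D)) =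
    inner ℂ (w : Completion D) (Y ((X v : D) : Completion D))

/-- the embedding as a linear map -/
def co : D →ₗ[ℂ] Completion D := (Completion.toComplₗᵢ (𝕜 := ℂ) (E := D)).toLinearMap

theorem co_eq (v : D) : co v = (v : Completion D) := rfl

theorem perp0 {z : Completion D} (h : ∀ v : D, inner ℂ z (v : Completion D) = 0) : z = 0 := by
  have : ∀ y : Completion D, inner ℂ z y = 0 := fun y =>
    Completion.induction_on y (isClosed_eq (by fun_prop) continuous_const) h
  exact inner_self_eq_zero.1 (this z)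

theorem dns (T : D →ₗ[ℂ] D)
    (h : ∀ z : Completion D, (∀ v, inner ℂ z ((T v : D) : Completion D) = 0) → z = 0) :
    DenseRange (co ∘ₗ T) := by
  have : Dense ((LinearMap.range (co ∘ₗ T) : Submodule ℂ (Completion D)) : Set (Completion D)) := by
    rw [Submodule.dense_iff_topologicalClosure_eq_top, Submodule.topologicalClosure_eq_top_iff,
      Submodule.eq_bot_iff]
    exact fun z m => h z fun v => (Submodule.mem_orthogonal' _ _).1 m _ ⟨v, rfl⟩
  exact this

/-- the generator `P` of a one-parameter group of isometries of `D` -/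
structure Gen (U : ℝ → D → D) (P : D →ₗ[ℂ] D) : Prop where
  anti : ∀ v w, inner ℂ (P v) w = -inner ℂ v (P w)
  zero : ∀ v, U 0 v = v
  sub : ∀ t (c : ℂ) v w, U t (v + c • w) = U t v + c • U t w
  norm : ∀ t v, ‖U t v‖ = ‖v‖
  comm : ∀ t v, U t (P v) = P (U t v)
  der : ∀ t v, HasDerivAt (fun t => U t v) (U t (P v)) t

variable {U : ℝ → D → D} {P : D →ₗ[ℂ] D}

theorem ode (g : Gen U P) (z : Completion D) (x : D) (e : ℝ) (he : e * e = 1)
    (h : ∀ t, inner ℂ z ((U t (x + (e : ℂ) • P x) : D) : Completion D) = 0) :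
    inner ℂ z (x : Completion D) = 0 := by
  let φ : D →L[ℝ] ℂ := ((innerSL ℂ z).comp (Completion.toComplL (𝕜 := ℂ) (E := D))).restrictScalars ℝ
  have hφ : ∀ y : D, φ y = inner ℂ z (y : Completion D) := fun _ => rfl
  have hc : (e : ℂ) * e = 1 := by exact_mod_cast he
  have d : ∀ t, HasDerivAt (fun t : ℝ => (Real.exp (e * t) : ℂ) * φ (U t x)) 0 t := fun t => by
    have d1 := φ.hasFDerivAt.comp_hasDerivAt t (g.der t x)
    have d2 : HasDerivAt (fun t : ℝ => (Real.exp (e * t) : ℂ)) ((Real.exp (e * t) * e : ℝ) : ℂ) t := by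
      have := ((hasDerivAt_id t).const_mul e).exp
      simpa using this.ofReal_comp
    have h0 := h t
    rw [g.sub, Completion.coe_add, Completion.coe_smul, inner_add_right, inner_smul_right] at h0
    refine (d2.mul d1).congr_deriv ?_
    simp only [Function.comp, hφ]
    push_cast
    linear_combination (Complex.exp (e * t) * e) * h0 -
      Complex.exp (e * t) * inner ℂ z ((U t (P x) : D) : Completion D) * hc
  have c : ∀ t : ℝ, (Real.exp (e * t) : ℂ) * φ (U t x) = φ x := fun t => by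
    have := is_const_of_deriv_eq_zero (fun t => (d t).differentiableAt) (fun t => (d t).deriv) t 0
    simpa [g.zero] using this
  have b : ∀ s : ℝ, ‖φ x‖ ≤ Real.exp (-s) * (‖z‖ * ‖x‖) := fun s => by
    rw [← c (-(e * s)), norm_mul, Complex.norm_real, Real.norm_eq_abs, abs_of_pos (Real.exp_pos _),
      show e * -(e * s) = -s by linear_combination (-s) * he]
    refine mul_le_mul_of_nonneg_left ?_ (Real.exp_pos _).le
    rw [hφ]
    exact (norm_inner_le_norm _ _).trans (by rw [Completion.norm_coe, g.norm])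
  have := ge_of_tendsto' (Real.tendsto_exp_neg_atTop_nhds_zero.mul_const (‖z‖ * ‖x‖)) b
  rw [zero_mul] at this
  exact norm_le_zero_iff.1 this

theorem kn (g : Gen U P) (v : D) : ‖v‖ ≤ ‖v - P v‖ ∧ ‖P v‖ ≤ ‖v - P v‖ := by
  have r : RCLike.re (inner ℂ v (P v)) = 0 := by
    have h1 := congrArg RCLike.re (g.anti v v)
    rw [inner_re_symm, map_neg] at h1
    linarith
  have e := norm_sub_sq (𝕜 := ℂ) v (P v)
  rw [r] at e
  constructor <;> refine abs_le_of_sq_le_sq' ?_ (norm_nonneg _) |>.2 <;> nlinarith [sq_nonneg ‖v‖, sq_nonneg ‖P v‖]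

theorem d3 (g : Gen U P) : DenseRange (co ∘ₗ ((1 + P) * (1 - P) * (1 - P))) := by
  refine dns _ fun z h => perp0 fun v => ?_
  have uK : ∀ t v, U t (v - P v) = U t v - P (U t v) := fun t v => by
    have := g.sub t (-1) v (P v)
    simpa [g.comm, sub_eq_add_neg] using this
  have h1 : ∀ v : D, inner ℂ z (((v - P v) - P (v - P v) : D) : Completion D) = 0 := fun v =>
    ode g z _ 1 (one_mul _) fun t => by
      have := h (U t v)
      rw [g.sub, g.comm, uK, uK]
      simpa using this
  have h2 : ∀ v : D, inner ℂ z ((v - P v : D) : Completion D) = 0 := fun v =>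
    ode g z _ (-1) (by norm_num) fun t => by
      have := h1 (U t v)
      rw [g.sub, g.comm, uK]
      simpa [sub_eq_add_neg, add_comm] using this
  exact ode g z _ (-1) (by norm_num) fun t => by
    have := h2 (U t v)
    rw [g.sub, g.comm]
    simpa [sub_eq_add_neg] using this

/-- bounded by the energy -/
def Kb (P : D →ₗ[ℂ] D) (B : D → D) : Prop := ∃ C : ℝ, 0 ≤ C ∧ ∀ v, ‖B v‖ ≤ C * ‖v - P v‖

/-- symmetric, and bounded by the energy together with two commutators -/
structure Good (P A : D →ₗ[ℂ] D) : Prop where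
  sym : ∀ v w, inner ℂ (A v) w = inner ℂ v (A w)
  k0 : Kb P A
  k1 : Kb P (P * A - A * P : D →ₗ[ℂ] D)
  k2 : Kb P (P * (P * A - A * P) - (P * A - A * P) * P : D →ₗ[ℂ] D)

variable {A : D →ₗ[ℂ] D}

/-- `A + i l` -/
def sh (A : D →ₗ[ℂ] D) (l : ℝ) : D →ₗ[ℂ] D := A + ((l : ℂ) * Complex.I) • 1

theorem sh_apply (l : ℝ) (v : D) : sh A l v = A v + ((l : ℂ) * Complex.I) • v := rfl

theorem im_sh (s : ∀ v w, inner ℂ (A v) w = inner ℂ v (A w)) (l : ℝ) (u : D) :
    (inner ℂ u (sh A l u)).im = l * ‖u‖ ^ 2 := by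
  have h1 : (inner ℂ u (A u)).im = 0 := by
    have := congrArg Complex.im (inner_conj_symm (𝕜 := ℂ) u (A u))
    rw [s, Complex.conj_im] at this
    linarith
  rw [sh_apply, inner_add_right, inner_smul_right, Complex.add_im, h1, inner_self_eq_norm_sq_to_K]
  simp [← Complex.ofReal_pow]

theorem key (g : Gen U P) (a : Good P A) :
    ∃ m : ℝ, 0 < m ∧ ∀ l : ℝ, |l| = m → DenseRange (co ∘ₗ ((1 - P) * sh A l)) := by
  obtain ⟨s, ⟨C0, p0, k0⟩, ⟨C1, p1, k1⟩, C2, p2, k2⟩ := a
  refine ⟨2 * C1 + C2 + 1, by positivity, fun l hl => dns _ fun z h => perp0 fun y => ?_⟩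
  set A1 : D →ₗ[ℂ] D := P * A - A * P with hA1
  set A2 : D →ₗ[ℂ] D := P * A1 - A1 * P with hA2
  set K : D →ₗ[ℂ] D := 1 - P with hK
  have Kv : ∀ v, K v = v - P v := fun _ => rfl
  have e1 : ∀ v, K (sh A l v) = sh A l (K v) - A1 v := fun v => by
    simp only [hK, hA1, sh_apply, LinearMap.sub_apply, Module.End.mul_apply, Module.End.one_apply,
      map_add, map_sub, map_smul, smul_sub]; abel
  have e2 : ∀ v, K (A1 v) = A1 (K v) - A2 v := fun v => by
    simp only [hK, hA2, LinearMap.sub_apply, Module.End.mul_apply, Module.End.one_apply,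
      map_sub]; abel
  have adj : ∀ u y, inner ℂ ((1 + P) u) y = inner ℂ u (K y) := fun u y => by
    rw [Kv, LinearMap.add_apply, Module.End.one_apply, inner_add_left, g.anti, inner_sub_right]; ring
  have hc : 0 ≤ C0 + C1 + |l| := by positivity
  refine norm_le_zero_iff.1 (le_of_forall_pos_le_add fun ε hε => ?_)
  have hM : 0 < ‖y‖ + (C0 + C1 + |l|) * ‖K y‖ + 1 := by positivity
  obtain ⟨v, hv⟩ := (d3 g).exists_dist_lt z (div_pos hε hM)
  set δ := ε / (‖y‖ + (C0 + C1 + |l|) * ‖K y‖ + 1) with hδ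
  have δ0 : 0 < δ := div_pos hε hM
  set u := K (K v) with hu
  have hv' : ‖(((1 + P) u : D) : Completion D) - z‖ ≤ δ := by
    rw [← dist_eq_norm, dist_comm]; exact hv.le
  have n1 : ‖K v‖ ≤ ‖u‖ := (kn g _).1
  have b0 : ‖A (K v)‖ ≤ C0 * ‖u‖ := k0 _
  have b1 : ‖A1 (K v)‖ ≤ C1 * ‖u‖ := k1 _
  have b1' : ‖A1 v‖ ≤ C1 * ‖u‖ := (k1 _).trans (mul_le_mul_of_nonneg_left n1 p1)
  have b2 : ‖A2 v‖ ≤ C2 * ‖u‖ := (k2 _).trans (mul_le_mul_of_nonneg_left n1 p2)
  have b3 : ‖K (sh A l v)‖ ≤ (C0 + C1 + |l|) * ‖u‖ := by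
    rw [e1, sh_apply]
    refine (norm_sub_le _ _).trans ((add_le_add_left (norm_add_le _ _) _).trans ?_)
    rw [norm_smul, norm_mul, Complex.norm_I, mul_one, Complex.norm_real, Real.norm_eq_abs]
    nlinarith [abs_nonneg l]
  have q1 : ‖inner ℂ u (K (K (sh A l v)))‖ ≤ δ * ((C0 + C1 + |l|) * ‖u‖) := by
    have := h v
    rw [← adj, ← Completion.inner_coe, ← sub_zero (inner ℂ _ _), ← this, Module.End.mul_apply,
      ← inner_sub_left]
    refine (norm_inner_le_norm _ _).trans ?_
    rw [Completion.norm_coe]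
    exact mul_le_mul hv' b3 (norm_nonneg _) δ0.le
  have q2 : K (K (sh A l v)) = sh A l u + (A2 v - A1 (K v) - A1 (K v)) := by
    rw [e1, map_sub, e1, e2]; abel
  have q3 : ‖inner ℂ u (A2 v - A1 (K v) - A1 (K v))‖ ≤ ‖u‖ * ((2 * C1 + C2) * ‖u‖) :=
    (norm_inner_le_norm _ _).trans (mul_le_mul_of_nonneg_left
      (((norm_sub_le _ _).trans (add_le_add_left (norm_sub_le _ _) _)).trans (by linarith))
      (norm_nonneg _))
  have q4 : |l| * ‖u‖ ^ 2 ≤ δ * ((C0 + C1 + |l|) * ‖u‖) + ‖u‖ * ((2 * C1 + C2) * ‖u‖) := by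
    have i1 := (Complex.abs_im_le_norm _).trans q1
    have i2 := (Complex.abs_im_le_norm _).trans q3
    rw [q2, inner_add_right, Complex.add_im, im_sh s] at i1
    have := abs_sub _ _ |>.trans (add_le_add i1 i2)
    rwa [add_sub_cancel_right, abs_mul, abs_of_nonneg (sq_nonneg ‖u‖)] at this
  have q5 : ‖u‖ ≤ δ * (C0 + C1 + |l|) := by
    rcases (norm_nonneg u).eq_or_lt with e | e
    · rw [← e]; positivity
    · rw [hl] at q4 ⊢
      exact le_of_mul_le_mul_right (by nlinarith) e
  have q6 : inner ℂ z (y : Completion D) = inner ℂ u (K y) -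
      inner ℂ ((((1 + P) u : D) : Completion D) - z) (y : Completion D) := by
    rw [inner_sub_left, Completion.inner_coe, adj]; ring
  rw [q6, zero_add]
  refine (norm_sub_le _ _).trans ((add_le_add (norm_inner_le_norm _ _) (norm_inner_le_norm _ _)).trans ?_)
  rw [Completion.norm_coe]
  have e : δ * (‖y‖ + (C0 + C1 + |l|) * ‖K y‖ + 1) = ε := div_mul_cancel₀ _ hM.ne'
  nlinarith [mul_le_mul_of_nonneg_right q5 (norm_nonneg (K y)),
    mul_le_mul_of_nonneg_right hv' (norm_nonneg y)]

theorem lift (g : Gen U P) {T : D →ₗ[ℂ] D} (h : DenseRange (co ∘ₗ ((1 - P) * T))) {φ : D → ℂ}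
    (sub : ∀ u v, φ (u - v) = φ u - φ v) {C : ℝ} (hC : 0 ≤ C) (b : ∀ u, ‖φ u‖ ≤ C * ‖u - P u‖)
    (z : ∀ v, φ (T v) = 0) (u : D) : φ u = 0 := by
  refine norm_le_zero_iff.1 (le_of_forall_pos_le_add fun ε hε => ?_)
  obtain ⟨v, hv⟩ := h.exists_dist_lt ((u - P u : D) : Completion D) (div_pos hε (by positivity : 0 < C + 1))
  have e : φ u = φ (u - T v) := by rw [sub, z, sub_zero]
  have n : ‖u - T v - P (u - T v)‖ < ε / (C + 1) := by
    have : u - T v - P (u - T v) = (u - P u) - (T v - P (T v)) := by rw [map_sub]; abel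
    rw [this, ← dist_eq_norm, ← Completion.dist_eq]
    exact hv
  have := div_mul_cancel₀ ε (by positivity : C + 1 ≠ 0)
  rw [e, zero_add]
  refine (b _).trans ?_
  nlinarith [norm_nonneg (u - T v - P (u - T v)), div_pos hε (by positivity : 0 < C + 1)]

theorem dns0 (g : Gen U P) {T : D →ₗ[ℂ] D} (h : DenseRange (co ∘ₗ ((1 - P) * T))) :
    DenseRange (co ∘ₗ T) :=
  dns _ fun z hz => perp0 (lift g h (φ := fun u => inner ℂ z (u : Completion D))
    (fun u v => by rw [Completion.coe_sub, inner_sub_right]) (norm_nonneg z)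
    (fun u => (norm_inner_le_norm _ _).trans (mul_le_mul_of_nonneg_left
      (by rw [Completion.norm_coe]; exact (kn g u).1) (norm_nonneg _))) hz)

theorem sh_adj (s : ∀ v w, inner ℂ (A v) w = inner ℂ v (A w)) (l : ℝ) (v w : D) :
    inner ℂ (sh A (-l) w) v = inner ℂ w (sh A l v) := by
  rw [sh_apply, sh_apply, inner_add_left, inner_add_right, s, inner_smul_left, inner_smul_right]
  simp

theorem wc_sh {Y : Completion D →L[ℂ] Completion D} (l : ℝ) :
    wc Y A A ↔ wc Y (sh A l) (sh A (-l)) := by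
  refine forall₂_congr fun v w => ?_
  rw [sh_apply, sh_apply, Completion.coe_add, Completion.coe_add, Completion.coe_smul,
    Completion.coe_smul, inner_add_left, map_add, inner_add_right, map_smul, inner_smul_left,
    inner_smul_right]
  simp

/-- **The resolvent.** It detects weak commutation with `A`, and commutes weakly with every
energy-bounded operator that commutes with `A` on the domain. -/
theorem res (g : Gen U P) (a : Good P A) : ∃ R : Completion D →L[ℂ] Completion D,
    (∀ Y, wc Y A A ↔ Y * R = R * Y) ∧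
    ∀ B B' : D →ₗ[ℂ] D, Kb P B → (∀ v w, inner ℂ (B v) w = inner ℂ v (B' w)) →
      (∀ v, A (B v) = B (A v)) → wc R B B' := by
  obtain ⟨m, hm, k⟩ := key g a
  have k1 := k m (abs_of_pos hm)
  have d1 := dns0 g k1
  have d2 := dns0 g (k (-m) (by rw [abs_neg, abs_of_pos hm]))
  have nb : ∃ C : ℝ, ∀ x : D, ‖co x‖ ≤ C * ‖(co ∘ₗ sh A m) x‖ := ⟨m⁻¹, fun x => by
    have := (Complex.abs_im_le_norm _).trans (norm_inner_le_norm (𝕜 := ℂ) x (sh A m x))
    rw [im_sh a.sym, abs_of_nonneg (by positivity)] at this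
    rw [LinearMap.comp_apply, co_eq, co_eq, Completion.norm_coe, Completion.norm_coe,
      le_inv_mul_iff₀ hm]
    rcases (norm_nonneg x).eq_or_lt with e | e
    · rw [← e]; simp
    · exact le_of_mul_le_mul_left (by nlinarith) e⟩
  let R : Completion D →L[ℂ] Completion D := LinearMap.extendOfNorm co (co ∘ₗ sh A m)
  have hR : ∀ v : D, R ((sh A m v : D) : Completion D) = v := fun v =>
    LinearMap.extendOfNorm_eq d1 nb v
  have hA : ∀ (w : D) x, inner ℂ ((sh A (-m) w : D) : Completion D) (R x) =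
      inner ℂ (w : Completion D) x := fun w x =>
    d1.induction_on x (isClosed_eq (by fun_prop) (by fun_prop)) fun v => by
      rw [LinearMap.comp_apply, co_eq, hR, Completion.inner_coe, Completion.inner_coe, sh_adj a.sym]
  refine ⟨R, fun Y => (wc_sh m).trans ⟨fun h => ContinuousLinearMap.ext fun x => ?_, fun h v w => ?_⟩,
    fun B B' ⟨C, hC, b⟩ ad c v w => ?_⟩
  · refine d1.induction_on x (isClosed_eq (by fun_prop) (by fun_prop)) fun v => ?_
    refine ext_inner_left ℂ fun y => ?_
    refine d2.induction_on y (isClosed_eq (by fun_prop) (by fun_prop)) fun w => ?_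
    simp only [LinearMap.comp_apply, co_eq, ContinuousLinearMap.mul_apply]
    rw [hR, hA, h]
  · rw [← hA w, ← ContinuousLinearMap.mul_apply R Y, ← h, ContinuousLinearMap.mul_apply, hR]
  · refine sub_eq_zero.1 (lift g k1 (φ := fun u => inner ℂ ((B' w : D) : Completion D) (R u) -
      inner ℂ (w : Completion D) (R ((B u : D) : Completion D))) (fun u v => ?_)
      (C := ‖B' w‖ * ‖R‖ + ‖w‖ * ‖R‖ * C) (by positivity) (fun u => ?_) (fun v => ?_) v)
    · simp only [map_sub, Completion.coe_sub, inner_sub_right]; ring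
    · have x1 : ‖R u‖ ≤ ‖R‖ * ‖u - P u‖ := (R.le_opNorm _).trans (mul_le_mul_of_nonneg_left
        (by rw [Completion.norm_coe]; exact (kn g u).1) (norm_nonneg _))
      have x2 : ‖R ((B u : D) : Completion D)‖ ≤ ‖R‖ * (C * ‖u - P u‖) :=
        (R.le_opNorm _).trans (mul_le_mul_of_nonneg_left
          (by rw [Completion.norm_coe]; exact b u) (norm_nonneg _))
      refine (norm_sub_le _ _).trans
        ((add_le_add (norm_inner_le_norm _ _) (norm_inner_le_norm _ _)).trans ?_)
      rw [Completion.norm_coe, Completion.norm_coe]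
      nlinarith [mul_le_mul_of_nonneg_left x1 (norm_nonneg (B' w)),
        mul_le_mul_of_nonneg_left x2 (norm_nonneg w)]
    · have : B (sh A m v) = sh A m (B v) := by rw [sh_apply, sh_apply, map_add, map_smul, c]
      show _ - _ = _
      rw [this, hR, hR, Completion.inner_coe, Completion.inner_coe, sub_eq_zero, ← inner_conj_symm,
        ← ad, inner_conj_symm]

end Vale.Agent.P352R.Le80
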